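import Vale.Agent.P026.Main

theorem Vale.Agent.Results.P026.QuasiRH.result :
    (∀ s : ℂ, 11 / 12 < s.re → riemannZeta s ≠ 0) ∧
    ∀ (q : ℕ) [NeZero q] (χ : DirichletCharacter ℂ q) (s : ℂ),
      11 / 12 < s.re → s ≠ 1 → χ.LFunction s ≠ 0 := by
  refine ⟨fun s hs => ?_, fun q _ χ s hs h1 => QRH.quasi_rh q χ s hs h1⟩
  by_cases h1 : s = 1
  · exact h1 ▸ riemannZeta_one_ne_zero
  · have := QRH.quasi_rh 1 1 s hs h1
    rwa [DirichletCharacter.LFunction_modOne_eq] at this
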